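import Mathlib

/-!
# Superadditive limit for a function of the side of a square (P148, L1 (e), (f))
-/

namespace Vale.Agent.P148.R2.H15

open Filter Topology

/-- Real Fekete lemma for packings of squares. -/
theorem fek_real {G : ℝ → ℝ} {C : ℝ} (h0 : ∀ t, 0 < t → 0 ≤ G t)
    (hC : ∀ t, 0 < t → G t ≤ C * t ^ 2)
    (hs : ∀ (s t : ℝ) (n : ℕ), 0 < s → n * s ≤ t → (n : ℝ) ^ 2 * G s ≤ G t) :
    ∃ l : ℝ, (∀ t, 0 < t → G t ≤ l * t ^ 2) ∧
      ∀ η, 0 < η → ∃ K, 0 < K ∧ ∀ t, K ≤ t → (l - η) * t ^ 2 ≤ G t := by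
  set S : Set ℝ := {x | ∃ t, 0 < t ∧ x = G t / t ^ 2} with hS
  have hne : S.Nonempty := ⟨_, 1, one_pos, rfl⟩
  have hbd : BddAbove S := by
    refine ⟨C, ?_⟩
    rintro x ⟨t, ht, rfl⟩
    rw [div_le_iff₀ (by positivity)]
    exact hC t ht
  refine ⟨sSup S, ?_, ?_⟩
  · intro t ht
    have : G t / t ^ 2 ≤ sSup S := le_csSup hbd ⟨t, ht, rfl⟩
    rwa [div_le_iff₀ (by positivity)] at this
  · intro η hη
    have hl0 : 0 ≤ sSup S := by
      refine le_trans ?_ (le_csSup hbd ⟨1, one_pos, rfl⟩)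
      have := h0 1 one_pos
      positivity
    obtain ⟨x, ⟨s, hs0, rfl⟩, hx⟩ := exists_lt_of_lt_csSup hne
      (show sSup S - η / 2 < sSup S by linarith)
    set l := sSup S with hl
    -- K with (1 - s / t)^2 * (l - η/2) ≥ l - η
    refine ⟨s + 4 * s * (l + 1) / η, by positivity, ?_⟩
    intro t ht
    have hst : s ≤ t := by
      have : 0 ≤ 4 * s * (l + 1) / η := by positivity
      linarith
    have ht0 : 0 < t := lt_of_lt_of_le hs0 hst
    set n : ℕ := ⌊t / s⌋₊ with hn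
    have hn1 : (n : ℝ) * s ≤ t := by
      have := Nat.floor_le (show 0 ≤ t / s by positivity)
      rw [← hn, le_div_iff₀ hs0] at this
      exact this
    have hn2 : t - s ≤ n * s := by
      have := Nat.lt_floor_add_one (t / s)
      rw [← hn, div_lt_iff₀ hs0] at this
      linarith
    have h1 := hs s t n hs0 hn1
    by_cases hneg : l - η ≤ 0
    · have : (l - η) * t ^ 2 ≤ 0 := mul_nonpos_of_nonpos_of_nonneg hneg (by positivity)
      exact this.trans (h0 t ht0)
    · push Not at hneg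
      refine le_trans ?_ h1
      have h2 : (l - η / 2) * s ^ 2 ≤ G s := by
        have : l - η / 2 ≤ G s / s ^ 2 := hx.le
        rwa [le_div_iff₀ (by positivity)] at this
      have h3 : (t - s) ^ 2 ≤ (n * s) ^ 2 := by
        apply pow_le_pow_left₀ (by linarith) hn2
      have h4 : (l - η) * t ^ 2 ≤ (l - η / 2) * (t - s) ^ 2 := by
        have h5 : 4 * s * (l + 1) ≤ η * t := by
          have : 4 * s * (l + 1) / η ≤ t := by linarith
          rwa [div_le_iff₀ hη, mul_comm t η] at this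
        have h6 : (t - s) ^ 2 ≥ t ^ 2 - 2 * s * t := by nlinarith [sq_nonneg s]
        have h7 : (l - η / 2) * (t ^ 2 - 2 * s * t) ≤ (l - η / 2) * (t - s) ^ 2 :=
          mul_le_mul_of_nonneg_left h6 (by linarith)
        refine le_trans ?_ h7
        have h8 : (l - η / 2) * (2 * s * t) ≤ η / 2 * t ^ 2 := by
          have h9 : 2 * (l - η / 2) * s ≤ η / 2 * t := by
            have : 4 * (l - η / 2) * s ≤ 4 * s * (l + 1) := by nlinarith
            linarith
          nlinarith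
        nlinarith
      calc (l - η) * t ^ 2 ≤ (l - η / 2) * (t - s) ^ 2 := h4
        _ ≤ (l - η / 2) * (n * s) ^ 2 := mul_le_mul_of_nonneg_left h3 (by linarith)
        _ = n ^ 2 * ((l - η / 2) * s ^ 2) := by ring
        _ ≤ n ^ 2 * G s := mul_le_mul_of_nonneg_left h2 (by positivity)

/-- Finite difference form, real. -/
theorem fek_diff_real {G : ℝ → ℝ} {C : ℝ} (h0 : ∀ t, 0 < t → 0 ≤ G t)
    (hC : ∀ t, 0 < t → G t ≤ C * t ^ 2)
    (hs : ∀ (s t : ℝ) (n : ℕ), 0 < s → n * s ≤ t → (n : ℝ) ^ 2 * G s ≤ G t) {m : ℕ} (hm : 0 < m)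
    {η : ℝ} (hη : 0 < η) :
    ∃ K, 0 < K ∧ ∀ t, K ≤ t → G t ≤ m ^ 2 * G (t / m) + η * t ^ 2 := by
  obtain ⟨l, hl, hK⟩ := fek_real h0 hC hs
  obtain ⟨K, hK0, hK⟩ := hK η hη
  have hm' : (0 : ℝ) < m := by exact_mod_cast hm
  refine ⟨m * K, by positivity, ?_⟩
  intro t ht
  have ht0 : 0 < t := lt_of_lt_of_le (by positivity) ht
  have h1 := hK (t / m) (by rw [le_div_iff₀ hm']; linarith)
  have h2 := hl t ht0
  have h3 : (m : ℝ) ^ 2 * ((l - η) * (t / m) ^ 2) = (l - η) * t ^ 2 := by field_simp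
  have h4 := mul_le_mul_of_nonneg_left h1 (by positivity : (0 : ℝ) ≤ (m : ℝ) ^ 2)
  rw [h3] at h4
  linarith

open ENNReal in
/-- Finite difference form in `ENNReal`. -/
theorem fek_diff {G : ℝ → ℝ≥0∞} {C : ℝ}
    (hC : ∀ t, 0 < t → G t ≤ ENNReal.ofReal (C * t ^ 2))
    (hs : ∀ (s t : ℝ) (n : ℕ), 0 < s → n * s ≤ t → (n : ℝ≥0∞) ^ 2 * G s ≤ G t) {m : ℕ}
    (hm : 0 < m) {η : ℝ} (hη : 0 < η) :
    ∃ K, 0 < K ∧ ∀ t, K ≤ t → G t ≤ m ^ 2 * G (t / m) + ENNReal.ofReal (η * t ^ 2) := by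
  have hfin : ∀ t, 0 < t → G t ≠ ⊤ := fun t ht => ne_top_of_le_ne_top ofReal_ne_top (hC t ht)
  obtain ⟨K, hK0, hK⟩ := fek_diff_real (G := fun t => (G t).toReal) (C := max C 0)
    (fun t _ => toReal_nonneg) (fun t ht => by
      have h := ENNReal.toReal_mono ofReal_ne_top (hC t ht)
      refine h.trans ?_
      rw [ENNReal.toReal_ofReal']
      apply max_le
      · exact mul_le_mul_of_nonneg_right (le_max_left _ _) (by positivity)
      · have : (0 : ℝ) ≤ max C 0 := le_max_right _ _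
        positivity)
    (fun s t n h1 h2 => by
      rcases Nat.eq_zero_or_pos n with rfl | hn
      · simp
      have hn' : (0 : ℝ) < n := by exact_mod_cast hn
      have ht : 0 < t := lt_of_lt_of_le (by positivity) h2
      have h := ENNReal.toReal_mono (hfin t ht) (hs s t n h1 h2)
      rw [ENNReal.toReal_mul, ENNReal.toReal_pow, ENNReal.toReal_natCast] at h
      exact h) hm hη
  refine ⟨K, hK0, ?_⟩
  intro t ht
  have ht0 : 0 < t := lt_of_lt_of_le hK0 ht
  have hm' : (0 : ℝ) < m := by exact_mod_cast hm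
  have h := hK t ht
  have htm : 0 < t / m := by positivity
  have h1 : G t = ENNReal.ofReal (G t).toReal := (ENNReal.ofReal_toReal (hfin t ht0)).symm
  rw [h1]
  refine (ENNReal.ofReal_le_ofReal h).trans ?_
  rw [ENNReal.ofReal_add (by positivity) (by positivity), ENNReal.ofReal_mul (by positivity),
    ENNReal.ofReal_toReal (hfin _ htm), ENNReal.ofReal_pow (by positivity), ENNReal.ofReal_natCast]

end Vale.Agent.P148.R2.H15
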